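import Vale.Agent.P259.Five.El
import Vale.Agent.P259.Real.Nerve

/-!
P259: the space of a groupoid, `G X = |el X|`, its maps, and the spaces of globular sums.
-/

open CategoryTheory Opposite

noncomputable section

namespace Vale.Agent.P259

variable {C : GlobExt}

/-- The space of a groupoid. -/
abbrev GX (X : Gpd C) : Type := Real.BC (El X)

/-- The vertex of a 0-cell. -/
def vtx (X : Gpd C) (x : X.cells 0) : GX X := Real.vertex (⟨disc 0, x⟩ : El X)

/-- The map induced by an element, by Yoneda. -/
def yMap (X : Gpd C) {S : GlobSum} (u : X.val S) : El (repGpd C S) ⥤ El X where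
  obj a := ⟨a.S, X.act (show C.Hom a.S S from a.u) u⟩
  map {a b} f := ⟨f.h, by
    rw [← X.act_comp]
    exact congrArg (fun g => X.act g u) f.compat⟩
  map_id _ := rfl
  map_comp _ _ := rfl

/-- The contractible space of a globular sum. -/
abbrev TS (C : GlobExt) (S : GlobSum) : Type := GX (repGpd C S)

/-- `G(u)`. -/
def gMap (X : Gpd C) {S : GlobSum} (u : X.val S) : C(TS C S, GX X) := Real.bmap (yMap X u)

/-- Parallel cells. -/
def Gpd.Par (X : Gpd C) : {n : ℕ} → X.cells n → X.cells n → Prop
  | 0, _, _ => True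
  | _ + 1, a, a' => X.s a = X.s a' ∧ X.t a = X.t a'

namespace El

variable {X : Gpd C} {J : Type} [Category J]

/-- Functors into elements with the same sums, elements and maps are equal. -/
theorem functor_ext {F F' : J ⥤ El X} (hobj : ∀ j, F.obj j = F'.obj j)
    (hmap : ∀ {i j} (f : i ⟶ j), HEq (F.map f).h (F'.map f).h) : F = F' := by
  refine CategoryTheory.Functor.hext hobj fun i j f => ?_
  have key : ∀ {a b a' b' : El X} (g : a ⟶ b) (g' : a' ⟶ b'), a = a' → b = b' →
      HEq g.h g'.h → HEq g g' := by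
    intro a b a' b' g g' ha hb h
    subst ha hb
    exact heq_of_eq (El.hom_ext (eq_of_heq h))
  exact key _ _ (hobj i) (hobj j) (hmap f)

theorem mk_congr {S : GlobSum} {u u' : X.val S} (h : u = u') :
    (⟨S, u⟩ : El X) = ⟨S, u'⟩ := congrArg (El.mk S) h

/-- The functor of elements of a morphism. -/
def mapFun {X Y : Gpd C} (f : X ⟶ Y) : El X ⥤ El Y where
  obj a := ⟨a.S, f.hom.app (op (C.ob a.S)) a.u⟩
  map {a b} g := ⟨g.h, by
    refine ((ConcreteCategory.congr_hom (f.hom.naturality
      (Quiver.Hom.op (show C.ob a.S ⟶ C.ob b.S from g.h))) b.u).symm.trans ?_)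
    exact congrArg (f.hom.app _) g.compat⟩
  map_id _ := rfl
  map_comp _ _ := rfl

end El

/-- The map of spaces of a morphism. -/
def gxMap {X Y : Gpd C} (f : X ⟶ Y) : C(GX X, GX Y) := Real.bmap (El.mapFun f)

theorem gxMap_gMap {X Y : Gpd C} (f : X ⟶ Y) {S : GlobSum} (u : X.val S) (z : TS C S) :
    gxMap f (gMap X u z) = gMap Y (f.hom.app (op (C.ob S)) u) z := by
  have h : yMap X u ⋙ El.mapFun f = yMap Y (f.hom.app (op (C.ob S)) u) := by
    refine El.functor_ext (fun a => El.mk_congr ?_) fun f => HEq.rfl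
    exact ConcreteCategory.congr_hom (f.hom.naturality
      (Quiver.Hom.op (show C.ob a.S ⟶ C.ob S from a.u))) u
  rw [gMap, gMap, ← h, Real.bmap_comp]
  rfl

/-- The map of the spaces of globular sums of a map in `C`. -/
def tMap {A B : GlobSum} (h : C.Hom A B) : C(TS C A, TS C B) :=
  gMap (repGpd C B) (S := A) h

theorem gMap_tMap (X : Gpd C) {A B : GlobSum} (h : C.Hom A B) (u : X.val B) (z : TS C A) :
    gMap X u (tMap h z) = gMap X (X.act h u) z := by
  have e : yMap (repGpd C B) (S := A) h ⋙ yMap X u = yMap X (X.act h u) := by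
    refine El.functor_ext (fun a => El.mk_congr ?_) fun f => HEq.rfl
    exact X.act_comp (show C.Hom a.S A from a.u) h u
  show _ = Real.bmap (yMap X (X.act h u)) z
  rw [← e, Real.bmap_comp]
  rfl

theorem gMap_id (S : GlobSum) (z : TS C S) : tMap (C.id S) z = z := by
  have e : yMap (repGpd C S) (S := S) (C.id S) = 𝟭 _ := by
    refine El.functor_ext (fun a => El.mk_congr ?_) fun f => HEq.rfl
    exact C.comp_id (show C.Hom a.S S from a.u)
  show Real.bmap (yMap (repGpd C S) (S := S) (C.id S)) z = z
  rw [e, Real.bmap_id]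
  rfl

theorem tMap_comp {A B D : GlobSum} (f : C.Hom A B) (g : C.Hom B D) (z : TS C A) :
    tMap (C.comp f g) z = tMap g (tMap f z) :=
  (gMap_tMap (repGpd C D) f g z).symm

/-- The elements of a representable have a terminal object. -/
def repTerminal (S : GlobSum) : Limits.IsTerminal (⟨S, C.id S⟩ : El (repGpd C S)) :=
  Limits.IsTerminal.ofUniqueHom
    (fun a => ⟨(show C.Hom a.S S from a.u), C.comp_id (show C.Hom a.S S from a.u)⟩)
    fun _ f => El.hom_ext ((C.comp_id f.h).symm.trans f.compat)

instance TS_contractible (S : GlobSum) : ContractibleSpace (TS C S) :=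
  Real.contractibleSpace_of_isTerminal (repTerminal S)

end Vale.Agent.P259
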