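import Vale.Agent.P259.Disc.Real
import Vale.Agent.P259.Ext.GX
import Vale.Agent.P259.Exists.Theta

/-!
P259: a compatible family of maps on discs extends naturally to the realisations of globular sums.
-/

open CategoryTheory Opposite

noncomputable section

namespace Vale.Agent.P259.Ext

variable {C : GlobExt}

theorem tMap_ι_comp {A B D : GlobSum} (f : A ⟶ B) (g : B ⟶ D) (z : TS C A) :
    tMap (C.ι (f ≫ g)) z = tMap (C.ι g) (tMap (C.ι f) z) := by
  rw [C.ι_comp, tMap_comp]

theorem tMap_ι_id (A : GlobSum) (z : TS C A) : tMap (C.ι (𝟙 A)) z = z := by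
  rw [C.ι_id, gMap_id]

variable (β : ∀ n, C(Disc.Dn n, TS C (disc n)))
  (hs : ∀ n p, β (n + 1) (Disc.source p) = tMap (C.ι (src n)) (β n p))
  (ht : ∀ n p, β (n + 1) (Disc.target p) = tMap (C.ι (tgt n)) (β n p))

include hs ht in
theorem beta_gmap {a b : ℕ} (g : GHom a b) (x : Disc.Dn a) :
    β b (Disc.gmap g x) = tMap (C.ι (discMap g)) (β a x) := by
  cases g with
  | id => rw [Disc.gmap_id, Exists.discMap_id, tMap_ι_id]
  | bd h s =>
    induction b generalizing a with
    | zero => omega
    | succ b ih =>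
      rcases Nat.lt_succ_iff_lt_or_eq.1 h with h' | rfl
      · rw [show GHom.bd h s = (GHom.bd h' s).comp (.bd b.lt_succ_self false) from rfl,
          Disc.gmap_comp, Disc.gmap_source, hs, ih x h', ← tMap_ι_comp]
        exact congrArg (fun f => tMap (C.ι f) (β a x)) (Exists.discMap_discMap _ _)
      · cases s
        · rw [Disc.gmap_source, hs]
          rfl
        · rw [Disc.gmap_target, ht]
          rfl

include hs ht in
theorem beta_glue (A : GlobSum) (l : Fin A.len) (z : Disc.Dn (A.j l)) :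
    tMap (C.ι (incl A l.castSucc)) (β _ (Disc.gmap (.bd (A.lt_left l) true) z)) =
      tMap (C.ι (incl A l.succ)) (β _ (Disc.gmap (.bd (A.lt_right l) false) z)) := by
  rw [beta_gmap β hs ht, beta_gmap β hs ht, ← tMap_ι_comp, ← tMap_ι_comp]
  exact congrArg (fun f => tMap (C.ι f) (β _ z)) (Exists.glue_rel A l)

/-- The extension of a compatible family to all globular sums. -/
def betaR (A : GlobSum) : C(Disc.Real A, TS C A) :=
  Disc.rdesc (fun l => (tMap (C.ι (incl A l))).comp (β (A.i l))) (beta_glue β hs ht A)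

theorem betaR_rmk (A : GlobSum) (l : Fin (A.len + 1)) (x : Disc.Dn (A.i l)) :
    betaR β hs ht A (Disc.rmk A l x) = tMap (C.ι (incl A l)) (β (A.i l) x) := rfl

theorem betaR_disc (n : ℕ) (x : Disc.Dn n) :
    betaR β hs ht (disc n) (Disc.rmk (disc n) 0 x) = β n x := by
  refine (congrArg (fun f => tMap (C.ι f) (β n x)) (?_ : incl (disc n) 0 = 𝟙 (disc n))).trans
    (tMap_ι_id _ _)
  exact Exists.discMap_id n

theorem betaR_rcell {A : GlobSum} {n : ℕ} (c : A.Cell n) (x : Disc.Dn n) :
    betaR β hs ht A (Disc.rcell c x) = tMap (C.ι (ofCell c)) (β n x) := by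
  induction c using Exists.cell_ind with
  | h l g =>
    show tMap (C.ι (incl A l)) (β _ (Disc.gmap g x)) = _
    rw [beta_gmap β hs ht, ← tMap_ι_comp]
    refine congrArg (fun f => tMap (C.ι f) (β n x)) ?_
    exact ((congrArg ofCell (Exists.cls_eq_pull A l g)).trans
      (Exists.discMap_ofCell g (Exists.cls A l (.id _))).symm).symm

/-- Naturality on `Θ₀`. -/
theorem betaR_rmap {A A' : GlobSum} (f : A ⟶ A') (q : Disc.Real A) :
    betaR β hs ht A' (Disc.rmap f q) = tMap (C.ι f) (betaR β hs ht A q) := by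
  revert q
  refine congrFun (Disc.real_ext (G := fun q => tMap (C.ι f) (betaR β hs ht A q)) fun l x => ?_)
  show betaR β hs ht A' (Disc.rcell (Disc.cellImage f l) x) = _
  rw [betaR_rcell β hs ht, betaR_rmk, ← tMap_ι_comp]
  refine congrArg (fun f => tMap (C.ι f) (β (A.i l) x)) (Exists.disc_ext ?_)
  rw [Exists.cellOf_ofCell]
  exact congrArg (f.app (op ⟨A.i l⟩)) (GlobSum.Cell.pull_id _).symm

include hs ht in
/-- A compatible family on discs extends to all globular sums, naturally on `Θ₀`. -/
theorem exists_betaR :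
    ∃ B : ∀ A : GlobSum, C(Disc.Real A, TS C A),
      (∀ n x, B (disc n) (Disc.rmk (disc n) 0 x) = β n x) ∧
        ∀ (A A' : GlobSum) (f : A ⟶ A') (q : Disc.Real A),
          B A' (Disc.rmap f q) = tMap (C.ι f) (B A q) :=
  ⟨betaR β hs ht, betaR_disc β hs ht, fun _ _ => betaR_rmap β hs ht⟩

end Vale.Agent.P259.Ext
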