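import Vale.Agent.P259.Disc.Functor
import Vale.Agent.P259.Real.Nerve

/-!
P259: for every chain in a coherator, a map of the simplex to the disc space of its last term,
coherent with faces: the iterated cone with respect to chosen contractions.
-/

open Set CategoryTheory Vale.Agent.P259.Real
open scoped unitInterval

noncomputable section

namespace Vale.Agent.P259.Ext

open Vale.Agent.P259.Disc (Action)

/-- An object of an extension as a globular sum. -/
def toSum {C : GlobExt} (A : C.Obj) : GlobSum := A

/-- The disc space of an object. -/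
abbrev RS {C : GlobExt} (A : C.Obj) : Type := Disc.Real (toSum A)

instance {C : GlobExt} (A : C.Obj) : ContractibleSpace (RS A) := Disc.real_contractible _

variable {C : GlobExt} (a : Action C)

/-- A map of disc spaces. -/
def amap {A B : C.Obj} (f : A ⟶ B) : C(RS A, RS B) := a.map f

theorem amap_id (A : C.Obj) (x : RS A) : amap a (𝟙 A) x = x :=
  congrArg (fun F : C(RS A, RS A) => F x) (a.map_id A)

theorem amap_comp {A B D : C.Obj} (f : A ⟶ B) (g : B ⟶ D) (x : RS A) :
    amap a (f ≫ g) x = amap a g (amap a f x) :=
  congrArg (fun F : C(RS A, RS D) => F x) (a.map_comp f g)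

/-- Chosen contractions of the disc spaces. -/
structure Contr (C : GlobExt) where
  /-- The centre. -/
  pt : ∀ A : C.Obj, RS A
  /-- The contraction. -/
  K : ∀ A : C.Obj, C(RS A × I, RS A)
  K_zero : ∀ A x, K A (x, 0) = x
  K_one : ∀ A x, K A (x, 1) = pt A

theorem nonempty_contr (C : GlobExt) : Nonempty (Contr C) := by
  have h : ∀ A : C.Obj, ∃ (p : RS A) (K : C(RS A × I, RS A)),
      (∀ x, K (x, 0) = x) ∧ ∀ x, K (x, 1) = p := fun A => by
    obtain ⟨p, ⟨H⟩⟩ := id_nullhomotopic (RS A)
    exact ⟨p, ⟨fun q => H (q.2, q.1), by fun_prop⟩, fun x => H.apply_zero x,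
      fun x => H.apply_one x⟩
  choose p K h0 h1 using h
  exact ⟨⟨p, K, h0, h1⟩⟩

/-- The cone map onto the next simplex. -/
def coneMap (q : ℕ) : C(Simp q × I, Simp (q + 1)) :=
  ⟨fun z => coneWeights q z.2 z.1, (continuous_coneWeights q).comp
    (continuous_snd.prodMk continuous_fst)⟩

theorem coneMap_surjective (q : ℕ) : Function.Surjective (coneMap q) := by
  intro w
  by_cases h : w (Fin.last (q + 1)) = 1
  · refine ⟨(stdSimplex.vertex 0, 1), stdSimplex.ext (funext fun i => ?_)⟩
    refine Fin.lastCases ?_ (fun j => ?_) i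
    · show coneWeights q 1 _ (Fin.last (q + 1)) = _
      rw [coneWeights_last, h]
      rfl
    · show coneWeights q 1 _ j.castSucc = _
      have hs : ∑ i : Fin (q + 1), w i.castSucc = 0 := by
        have := stdSimplex.sum_eq_one w
        rw [Fin.sum_univ_castSucc] at this
        linarith
      have := (Finset.sum_eq_zero_iff_of_nonneg fun i _ => stdSimplex.zero_le w _).1 hs j
        (Finset.mem_univ j)
      rw [coneWeights_castSucc, this]
      simp
  · have hle : w (Fin.last (q + 1)) ≤ 1 := stdSimplex.le_one w _
    have hlt : 0 < 1 - w (Fin.last (q + 1)) := sub_pos.2 (lt_of_le_of_ne hle h)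
    refine ⟨(⟨fun i => w i.castSucc / (1 - w (Fin.last (q + 1))),
        fun i => div_nonneg (stdSimplex.zero_le w _) hlt.le, ?_⟩,
      ⟨w (Fin.last (q + 1)), stdSimplex.zero_le w _, hle⟩), stdSimplex.ext (funext fun i => ?_)⟩
    · rw [← Finset.sum_div, div_eq_one_iff_eq hlt.ne']
      have := stdSimplex.sum_eq_one w
      rw [Fin.sum_univ_castSucc] at this
      linarith
    · refine Fin.lastCases ?_ (fun j => ?_) i
      · exact coneWeights_last q _ _
      · refine (coneWeights_castSucc q _ _ j).trans ?_
        exact mul_div_cancel₀ _ hlt.ne'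

theorem coneMap_eq {q : ℕ} {x y : Simp q × I} (h : coneMap q x = coneMap q y) :
    x.2 = y.2 ∧ (x.2 ≠ 1 → x.1 = y.1) := by
  have hl : (x.2 : ℝ) = y.2 := by
    have := congrArg (fun w : Simp (q + 1) => w (Fin.last (q + 1))) h
    exact (coneWeights_last q x.2 x.1).symm.trans (this.trans (coneWeights_last q y.2 y.1))
  refine ⟨Subtype.ext hl, fun hne => stdSimplex.ext (funext fun i => ?_)⟩
  have hi := congrArg (fun w : Simp (q + 1) => w i.castSucc) h
  have hi' : (1 - (x.2 : ℝ)) * x.1 i = (1 - (y.2 : ℝ)) * y.1 i :=
    (coneWeights_castSucc q x.2 x.1 i).symm.trans (hi.trans (coneWeights_castSucc q y.2 y.1 i))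
  rw [← hl] at hi'
  refine mul_left_cancel₀ ?_ hi'
  exact sub_ne_zero.2 fun e => hne (Subtype.ext e.symm)

theorem simp_zero_eq (t : Simp 0) : t = stdSimplex.vertex 0 := by
  refine stdSimplex.ext (funext fun i => ?_)
  have := stdSimplex.sum_eq_one t
  rw [Fin.sum_univ_one] at this
  fin_cases i
  simp at this ⊢

variable {a} (K : Contr C) {J : Type} [Preorder J] (F : J ⥤ C.Obj)

/-- The restriction of an index to all but the last position. -/
def initHom {q : ℕ} (φ : Fin (q + 2) →o J) : Fin (q + 1) →o J :=
  φ.comp ⟨Fin.castSucc, fun _ _ h => h⟩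

theorem last_le {q : ℕ} (φ : Fin (q + 2) →o J) :
    initHom φ (Fin.last q) ≤ φ (Fin.last (q + 1)) := φ.monotone (Fin.le_last _)

variable (a) in
/-- One step of the iterated cone. -/
def stepMap {q : ℕ} (φ : Fin (q + 2) →o J) (g : C(Simp q, RS (F.obj (initHom φ (Fin.last q))))) :
    C(Simp (q + 1), RS (F.obj (φ (Fin.last (q + 1))))) :=
  let m : C(Simp q × I, RS (F.obj (φ (Fin.last (q + 1))))) :=
    (K.K _).comp ⟨fun z => (amap a (F.map (homOfLE (last_le φ))) (g z.1), z.2), by fun_prop⟩
  (Topology.IsQuotientMap.of_surjective_continuous (coneMap_surjective q)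
    (coneMap q).continuous).lift m fun x y h => by
      obtain ⟨h2, h1⟩ := coneMap_eq h
      obtain ⟨x1, x2⟩ := x
      obtain ⟨y1, y2⟩ := y
      obtain rfl : x2 = y2 := h2
      by_cases hx : x2 = 1
      · subst hx
        exact (K.K_one _ _).trans (K.K_one _ _).symm
      · obtain rfl : x1 = y1 := h1 hx
        rfl

variable (a) in
/-- The iterated cone of a chain. -/
def proto : (q : ℕ) → (φ : Fin (q + 1) →o J) → C(Simp q, RS (F.obj (φ (Fin.last q))))
  | 0, φ => ContinuousMap.const _ (K.pt (F.obj (φ (Fin.last 0))))
  | q + 1, φ => stepMap a K F φ (proto q (initHom φ))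

theorem proto_cone {q : ℕ} (φ : Fin (q + 2) →o J) (t : Simp q) (s : I) :
    proto a K F (q + 1) φ (coneMap q (t, s)) =
      K.K _ (amap a (F.map (homOfLE (last_le φ))) (proto a K F q (initHom φ) t), s) :=
  congrArg (fun G : C(Simp q × I, RS (F.obj (φ (Fin.last (q + 1))))) => G (t, s))
    ((Topology.IsQuotientMap.of_surjective_continuous (coneMap_surjective q)
      (coneMap q).continuous).lift_comp
        ((K.K _).comp ⟨fun z => (amap a (F.map (homOfLE (last_le φ)))
          (proto a K F q (initHom φ) z.1), z.2), by fun_prop⟩) (by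
        intro x y h
        obtain ⟨h2, h1⟩ := coneMap_eq h
        obtain ⟨x1, x2⟩ := x
        obtain ⟨y1, y2⟩ := y
        obtain rfl : x2 = y2 := h2
        by_cases hx : x2 = 1
        · subst hx
          exact (K.K_one _ _).trans (K.K_one _ _).symm
        · obtain rfl : x1 = y1 := h1 hx
          rfl))

variable (a)

/-- The iterated cone, carried to a later index. -/
def later {q : ℕ} (φ : Fin (q + 1) →o J) {j : J} (h : φ (Fin.last q) ≤ j) :
    C(Simp q, RS (F.obj j)) :=
  (amap a (F.map (homOfLE h))).comp (proto a K F q φ)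

theorem later_congr {q : ℕ} {φ φ' : Fin (q + 1) →o J} (e : φ = φ') {j : J}
    (h : φ (Fin.last q) ≤ j) (h' : φ' (Fin.last q) ≤ j) : later a K F φ h = later a K F φ' h' := by
  subst e
  rfl

theorem later_trans {q : ℕ} (φ : Fin (q + 1) →o J) {i j : J} (h : φ (Fin.last q) ≤ i)
    (h' : i ≤ j) (t : Simp q) :
    amap a (F.map (homOfLE h')) (later a K F φ h t) = later a K F φ (h.trans h') t := by
  show amap a _ (amap a _ _) = amap a _ _
  refine (amap_comp a _ _ _).symm.trans ?_
  refine congrArg (fun f => amap a f (proto a K F q φ t)) ?_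
  exact (F.map_comp _ _).symm.trans rfl

theorem later_refl {q : ℕ} (φ : Fin (q + 1) →o J) (t : Simp q) :
    later a K F φ le_rfl t = proto a K F q φ t := by
  show amap a (F.map (homOfLE le_rfl)) _ = _
  refine (congrArg (fun f => amap a f (proto a K F q φ t)) (F.map_id _)).trans ?_
  exact amap_id a _ _

theorem contr_transport {i j : J} (e : i = j) (h : i ≤ j) (x : RS (F.obj i)) (s : I) :
    amap a (F.map (homOfLE h)) (K.K _ (x, s)) = K.K _ (amap a (F.map (homOfLE h)) x, s) := by
  subst e
  have h1 : ∀ y, amap a (F.map (homOfLE h)) y = y := fun y =>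
    (congrArg (fun f => amap a f y) (F.map_id i)).trans (amap_id a _ y)
  rw [h1, h1]

theorem pt_transport {i j : J} (e : i = j) (h : i ≤ j) :
    amap a (F.map (homOfLE h)) (K.pt (F.obj i)) = K.pt (F.obj j) := by
  subst e
  exact (congrArg (fun f => amap a f (K.pt (F.obj i))) (F.map_id i)).trans (amap_id a _ _)

theorem coneMap_zero {q : ℕ} (t : Simp q) :
    coneMap q (t, 0) = push Fin.castSuccOrderEmb t := by
  refine stdSimplex.ext (funext fun k => ?_)
  refine Fin.lastCases ?_ (fun k => ?_) k
  · rw [push_apply_of_notMem _ t fun i => (Fin.castSucc_lt_last i).ne]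
    exact coneWeights_last q 0 t
  · refine (coneWeights_castSucc q 0 t k).trans ?_
    rw [show k.castSucc = (Fin.castSuccOrderEmb k : Fin (q + 2)) from rfl, push_apply]
    simp

theorem coneMap_one {q : ℕ} (t : Simp q) :
    coneMap q (t, 1) = stdSimplex.vertex (Fin.last (q + 1)) := by
  refine stdSimplex.ext (funext fun k => ?_)
  refine Fin.lastCases ?_ (fun k => ?_) k
  · exact (coneWeights_last q 1 t).trans (by simp)
  · exact (coneWeights_castSucc q 1 t k).trans (by simp [(Fin.castSucc_lt_last k).ne])

/-- Coherence with faces. -/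
theorem proto_push : ∀ {q : ℕ} (φ : Fin (q + 1) →o J) {r : ℕ} (ε : Face r q) (t : Simp r),
    proto a K F q φ (push ε t) = later a K F (φ.comp ε.toOrderHom)
      (show φ (ε (Fin.last r)) ≤ φ (Fin.last q) from φ.monotone (Fin.le_last _)) t := by
  intro q
  induction q with
  | zero =>
    intro φ r ε t
    obtain rfl : r = 0 := by
      have := Fintype.card_le_of_injective ε ε.injective
      simp at this
      omega
    show K.pt _ = amap a _ (K.pt _)
    refine (pt_transport a K F ?_ _).symm
    exact congrArg φ (Fin.ext (by omega))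
  | succ q ih =>
    intro φ r ε t
    rcases (Fin.le_last (ε (Fin.last r))).lt_or_eq with hlt | heq
    · have hr : ∀ i, ε i ≠ Fin.last (q + 1) := fun i =>
        (lt_of_le_of_lt (ε.monotone (Fin.le_last i)) hlt).ne
      let ε' : Face r q := OrderEmbedding.ofStrictMono (fun i => (ε i).castPred (hr i))
        fun i j h => (Fin.castPred_lt_castPred_iff (hi := hr i) (hj := hr j)).2 (ε.strictMono h)
      have hε : ε = ε'.trans Fin.castSuccOrderEmb := by
        ext i
        rfl
      rw [show push ε t = coneMap q (push ε' t, 0) by rw [coneMap_zero, ← push_trans, ← hε],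
        proto_cone, K.K_zero, ih (initHom φ) ε' t]
      refine (later_trans a K F _ _ _ _).trans ?_
      refine congrArg (fun G : C(_, _) => G t) (later_congr a K F ?_ _ _)
      ext i
      rfl
    · cases r with
      | zero =>
        obtain rfl := simp_zero_eq t
        rw [show push ε (stdSimplex.vertex 0) = coneMap q (stdSimplex.vertex 0, 1) by
          rw [coneMap_one, ← heq]
          exact stdSimplex.map_vertex _ _, proto_cone, K.K_one]
        show K.pt _ = amap a _ (K.pt _)
        exact (pt_transport a K F (congrArg φ heq) _).symm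
      | succ r =>
        obtain ⟨⟨t', s⟩, rfl⟩ := coneMap_surjective r t
        have hr : ∀ i : Fin (r + 1), ε i.castSucc ≠ Fin.last (q + 1) := fun i h =>
          (Fin.castSucc_lt_last i).ne (ε.injective (h.trans heq.symm))
        let ε' : Face r q := OrderEmbedding.ofStrictMono (fun i => (ε i.castSucc).castPred (hr i))
          fun i j h => (Fin.castPred_lt_castPred_iff (hi := hr i) (hj := hr j)).2
            (ε.strictMono (Fin.castSucc_lt_castSucc_iff.2 h))
        have hc : ∀ i, (ε' i).castSucc = ε i.castSucc := fun i => Fin.castSucc_castPred _ (hr i)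
        have hpush : push ε (coneMap r (t', s)) = coneMap q (push ε' t', s) := by
          refine stdSimplex.ext (funext fun k => ?_)
          refine Fin.lastCases ?_ (fun k => ?_) k
          · rw [← heq, push_apply, heq]
            exact (coneWeights_last r s t').trans (coneWeights_last q s _).symm
          · refine Eq.trans ?_ (coneWeights_castSucc q s _ k).symm
            by_cases hk : ∃ i, ε' i = k
            · obtain ⟨i, rfl⟩ := hk
              rw [hc, push_apply, push_apply]
              exact coneWeights_castSucc r s t' i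
            · rw [not_exists] at hk
              rw [push_apply_of_notMem ε' t' hk, mul_zero, push_apply_of_notMem ε _ fun i => ?_]
              refine Fin.lastCases ?_ (fun i => ?_) i
              · rw [heq]
                exact (Fin.castSucc_lt_last k).ne'
              · exact fun h => hk i (Fin.castSucc_injective _ ((hc i).trans h))
        rw [hpush, proto_cone, ih (initHom φ) ε' t']
        refine Eq.trans ?_ (congrArg (amap a _) (proto_cone K F (φ.comp ε.toOrderHom) t' s)).symm
        refine Eq.trans ?_ (contr_transport a K F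
          (show (φ.comp ε.toOrderHom) (Fin.last (r + 1)) = _ from congrArg φ heq) _ _ _).symm
        refine congrArg (fun x => K.K _ (x, s)) ?_
        refine (later_trans a K F _ _ _ _).trans ?_
        refine Eq.trans ?_ (amap_comp a _ _ _)
        refine Eq.trans ?_ (congrArg (fun f => amap a f _) (F.map_comp _ _))
        refine congrArg (fun G : C(_, _) => G t') (later_congr a K F ?_ _ _)
        ext i
        exact congrArg φ (hc i)

theorem proto_comp {J' : Type} [Preorder J'] (μ : J' →o J) :
    ∀ (q : ℕ) (φ : Fin (q + 1) →o J'),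
      proto a K (μ.monotone.functor ⋙ F) q φ = proto a K F q (μ.comp φ)
  | 0, _ => rfl
  | q + 1, φ => by
    show stepMap a K (μ.monotone.functor ⋙ F) φ (proto a K (μ.monotone.functor ⋙ F) q (initHom φ))
      = _
    rw [proto_comp μ q (initHom φ)]
    rfl

end Vale.Agent.P259.Ext
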