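import Vale.Agent.P259.Ext.GX
import Vale.Agent.P259.Disc.Functor
import Vale.Agent.P259.Disc.Box

/-!
P259: the natural cylinders `M S = T S ∪ D S × I` joining the two realisations of a globular sum,
their contractibility, and their functoriality on a coherator, by freeness.
-/

open Set CategoryTheory
open scoped unitInterval

noncomputable section

namespace Vale.Agent.P259.Ext

open Vale.Agent.P259.Disc (Action)

/-- Maps of the disc spaces to the spaces `T S`, natural on `Θ₀`. -/
structure Beta (C : GlobExt) where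
  /-- The map. -/
  map : ∀ A : GlobSum, C(Disc.Real A, TS C A)
  nat : ∀ {A B : GlobSum} (f : A ⟶ B) (p : Disc.Real A),
    map B (Disc.rmap f p) = tMap (C.ι f) (map A p)

variable {C : GlobExt} (b : Beta C)

/-- The gluing of the cylinder. -/
def MGlue (A : GlobSum) (u v : TS C A ⊕ Disc.Real A × I) : Prop :=
  ∃ p, u = Sum.inl (b.map A p) ∧ v = Sum.inr (p, 0)

/-- The mapping cylinder. -/
def Cyl (A : GlobSum) : Type := Quot (MGlue b A)

instance (A : GlobSum) : TopologicalSpace (Cyl b A) :=
  inferInstanceAs (TopologicalSpace (Quot (MGlue b A)))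

/-- The space `T A` in the cylinder. -/
def base (A : GlobSum) : C(TS C A, Cyl b A) :=
  ⟨fun z => Quot.mk _ (Sum.inl z), continuous_quot_mk.comp continuous_inl⟩

/-- The cylinder on the disc space. -/
def side (A : GlobSum) : C(Disc.Real A × I, Cyl b A) :=
  ⟨fun z => Quot.mk _ (Sum.inr z), continuous_quot_mk.comp continuous_inr⟩

theorem side_zero {A : GlobSum} (p : Disc.Real A) : side b A (p, 0) = base b A (b.map A p) :=
  (Quot.sound ⟨p, rfl, rfl⟩).symm

variable {b}

/-- Maps out of a cylinder. -/
def cdesc {A : GlobSum} {Y : Type} [TopologicalSpace Y] (f : C(TS C A, Y))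
    (g : C(Disc.Real A × I, Y)) (h : ∀ p, g (p, 0) = f (b.map A p)) : C(Cyl b A, Y) :=
  ⟨Quot.lift (Sum.elim f g) (by rintro _ _ ⟨p, rfl, rfl⟩; exact (h p).symm),
    continuous_quot_lift _ (f.continuous.sumElim g.continuous)⟩

theorem cyl_ext {A : GlobSum} {Y : Sort*} {F G : Cyl b A → Y}
    (h0 : ∀ z, F (base b A z) = G (base b A z)) (h1 : ∀ z, F (side b A z) = G (side b A z)) :
    F = G := by
  funext w
  induction w using Quot.ind with
  | _ w =>
    cases w with
    | inl z => exact h0 z
    | inr z => exact h1 z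

variable (b)

/-- The retraction on `T A`. -/
def down (A : GlobSum) : C(Cyl b A, TS C A) :=
  cdesc (ContinuousMap.id _) ((b.map A).comp ContinuousMap.fst) fun _ => rfl

theorem cyl_contractible (A : GlobSum) : ContractibleSpace (Cyl b A) := by
  let H : C(Cyl b A, C(I, Cyl b A)) := cdesc
    (ContinuousMap.curry ((base b A).comp ContinuousMap.fst))
    (ContinuousMap.curry ⟨fun q : (Disc.Real A × I) × I => side b A (q.1.1, q.1.2 * q.2), by fun_prop⟩)
    fun p => by
      ext r
      show side b A (p, 0 * r) = base b A (b.map A p)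
      rw [show (0 : I) * r = 0 from Subtype.ext (by simp), side_zero]
  have h0 : ∀ w, H w 0 = base b A (down b A w) := by
    refine congrFun (cyl_ext (fun z => rfl) fun z => ?_)
    show side b A (z.1, z.2 * 0) = base b A (b.map A z.1)
    rw [show z.2 * (0 : I) = 0 from Subtype.ext (by simp), side_zero]
  have h1 : ∀ w, H w 1 = w := by
    refine congrFun (cyl_ext (G := fun w => w) (fun z => rfl) fun z => ?_)
    show side b A (z.1, z.2 * 1) = side b A z
    rw [show z.2 * (1 : I) = z.2 from Subtype.ext (by simp)]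
  let K : ContinuousMap.Homotopy ((base b A).comp (down b A)) (ContinuousMap.id (Cyl b A)) :=
    { toFun := fun q => H q.2 q.1
      continuous_toFun := (ContinuousMap.uncurry H).continuous.comp
        (continuous_snd.prodMk continuous_fst)
      map_zero_left := h0
      map_one_left := h1 }
  refine ContinuousMap.HomotopyEquiv.contractibleSpace (Y := TS C A) ⟨down b A, base b A, ⟨K⟩, ?_⟩
  rw [show (down b A).comp (base b A) = ContinuousMap.id _ from ContinuousMap.ext fun _ => rfl]

variable (a : Action C)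

/-- The maps of cylinders over a map of `C`. -/
structure CylHom (A B : GlobSum) : Type where
  /-- The map of `C`. -/
  h : C.Hom A B
  /-- The map of the cylinder. -/
  φ : C(Disc.Real A × I, Cyl b B)
  bottom : ∀ p, φ (p, 0) = base b B (tMap h (b.map A p))
  top : ∀ p, φ (p, 1) = side b B (a.map h p, 1)

namespace CylHom

variable {b a} {A B D : GlobSum}

@[ext]
theorem ext {f g : CylHom b a A B} (h : f.h = g.h) (h' : ∀ z, f.φ z = g.φ z) : f = g := by
  obtain ⟨fh, fφ, _, _⟩ := f
  obtain ⟨gh, gφ, _, _⟩ := g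
  obtain rfl : fh = gh := h
  obtain rfl : fφ = gφ := ContinuousMap.ext h'
  rfl

/-- The map of cylinders. -/
def toMap (f : CylHom b a A B) : C(Cyl b A, Cyl b B) :=
  cdesc ((base b B).comp (tMap f.h)) f.φ f.bottom

/-- Composition. -/
def comp (f : CylHom b a A B) (g : CylHom b a B D) : CylHom b a A D where
  h := C.comp f.h g.h
  φ := g.toMap.comp f.φ
  bottom p := by
    show g.toMap (f.φ (p, 0)) = _
    rw [f.bottom, tMap_comp]
    rfl
  top p := by
    show g.toMap (f.φ (p, 1)) = _
    rw [f.top, a.map_comp]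
    exact g.top _

theorem toMap_comp (f : CylHom b a A B) (g : CylHom b a B D) (w : Cyl b A) :
    (f.comp g).toMap w = g.toMap (f.toMap w) := by
  revert w
  refine congrFun (cyl_ext (fun z => ?_) fun z => rfl)
  exact congrArg (base b D) (tMap_comp f.h g.h z)

/-- The identity. -/
def id (A : GlobSum) : CylHom b a A A where
  h := C.id A
  φ := side b A
  bottom p := by rw [side_zero, gMap_id]
  top p := by rw [a.map_id]; rfl

theorem toMap_id (w : Cyl b A) : (CylHom.id (b := b) (a := a) A).toMap w = w := by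
  revert w
  refine congrFun (cyl_ext (G := fun w => w) (fun z => ?_) fun z => rfl)
  exact congrArg (base b A) (gMap_id A z)

/-- The map over a map of `Θ₀`. -/
def ι (f : A ⟶ B) : CylHom b a A B where
  h := C.ι f
  φ := (side b B).comp ((Disc.rmap f).prodMap (ContinuousMap.id I))
  bottom p := by
    show side b B (Disc.rmap f p, 0) = _
    rw [side_zero, b.nat]
  top p := by
    show side b B (Disc.rmap f p, 1) = _
    rw [a.map_ι]

theorem comp_ι_φ (f : A ⟶ B) (g : CylHom b a B D) (p : Disc.Real A) (t : I) :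
    ((CylHom.ι f).comp g).φ (p, t) = g.φ (Disc.rmap f p, t) := rfl

end CylHom

/-- The extension of the cylinders. -/
def cylExt : GlobExt where
  Hom A B := CylHom b a A B
  id := CylHom.id
  comp := CylHom.comp
  id_comp f := CylHom.ext (C.id_comp f.h) fun _ => rfl
  comp_id f := CylHom.ext (C.comp_id f.h) fun z => CylHom.toMap_id _
  assoc f g h := CylHom.ext (C.assoc f.h g.h h.h) fun z => (CylHom.toMap_comp g h _).symm
  ι := CylHom.ι
  ι_id A := CylHom.ext (C.ι_id A) fun z => by
    show side b A (Disc.rmap (𝟙 A) z.1, z.2) = side b A z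
    rw [Disc.rmap_id]
  ι_comp f g := CylHom.ext (C.ι_comp f g) fun z => by
    show side b _ (Disc.rmap (f ≫ g) z.1, z.2) = side b _ (Disc.rmap g (Disc.rmap f z.1), z.2)
    rw [Disc.rmap_comp]
  preserves B := by
    intro A x hx
    have h1 : Matching (fun A => C.Hom A B) (fun f h => C.comp (C.ι f) h) A (fun l => (x l).h) :=
      fun l => congrArg CylHom.h (hx l)
    obtain ⟨c, hc, hcu⟩ := C.preserves B A _ h1
    let G : C(Disc.Real A, C(I, Cyl b B)) := Disc.rdesc
      (fun l => ContinuousMap.curry ((x l).φ.comp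
        ((Disc.rmk (disc (A.i l)) 0).prodMap (ContinuousMap.id I)))) fun l z => by
      ext t
      have h2 : (x l.castSucc).φ (Disc.rmap (glueTgt A l) (Disc.rmk (disc (A.j l)) 0 z), t) =
          (x l.succ).φ (Disc.rmap (glueSrc A l) (Disc.rmk (disc (A.j l)) 0 z), t) :=
        congrArg (fun q : CylHom b a (disc (A.j l)) B => q.φ (Disc.rmk (disc (A.j l)) 0 z, t)) (hx l)
      rw [glueTgt, glueSrc, Disc.rmap_discMap, Disc.rmap_discMap] at h2
      exact h2
    have hb : ∀ p, G p 0 = base b B (tMap c (b.map A p)) := by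
      refine congrFun (Disc.real_ext fun l w => ?_)
      refine ((x l).bottom (Disc.rmk (disc (A.i l)) 0 w)).trans (congrArg (base b B) ?_)
      rw [← hc l, tMap_comp, ← b.nat]
      rfl
    have ht : ∀ p, G p 1 = side b B (a.map c p, 1) := by
      refine congrFun (Disc.real_ext fun l w => ?_)
      refine ((x l).top (Disc.rmk (disc (A.i l)) 0 w)).trans ?_
      rw [← hc l, a.map_comp, a.map_ι]
      rfl
    refine ⟨⟨c, ContinuousMap.uncurry G, hb, ht⟩, fun l => CylHom.ext (hc l) ?_, fun y hy => ?_⟩
    · rintro ⟨p, t⟩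
      obtain ⟨w, rfl⟩ := (Disc.discHomeo (A.i l)).symm.surjective p
      rfl
    · refine CylHom.ext (hcu y.h fun l => congrArg CylHom.h (hy l)) ?_
      rintro ⟨p, t⟩
      revert p
      refine congrFun (Disc.real_ext (G := fun p => G p t) fun l w => ?_)
      exact congrArg (fun q : CylHom b a (disc (A.i l)) B => q.φ (Disc.rmk (disc (A.i l)) 0 w, t))
        (hy l)

/-- The projection. -/
def cylFst : GlobExt.Map (cylExt b a) C where
  map f := CylHom.h f
  map_id _ := rfl
  map_comp _ _ := rfl
  map_ι _ := rfl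

theorem liftsOver_cylFst : LiftsOver (cylFst b a) := by
  intro n S f g h hpar
  have := cyl_contractible b S
  let r : ∀ m, C(Disc.Dn m × I, Disc.Real (disc m) × I) :=
    fun m => (Disc.rmk (disc m) 0).prodMap (ContinuousMap.id I)
  let f0 : C(Disc.Dn (n + 1), Cyl b S) :=
    ⟨fun x => base b S (tMap h.1 (b.map (disc (n + 1)) (Disc.rmk (disc (n + 1)) 0 x))), by fun_prop⟩
  let f1 : C(Disc.Dn (n + 1), Cyl b S) :=
    ⟨fun x => side b S (a.map h.1 (Disc.rmk (disc (n + 1)) 0 x), 1), by fun_prop⟩
  have hst : ∀ (z : Disc.Sn n) (t : I),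
      (CylHom.φ f).comp (r n) (Disc.incl z, t) = (CylHom.φ g).comp (r n) (Disc.incl z, t) := by
    intro z t
    cases n with
    | zero => exact isEmptyElim z
    | succ m =>
      rcases Disc.mem_hemisphere z with ⟨y, rfl⟩ | ⟨y, rfl⟩
      · have h' : CylHom.φ f (Disc.rmap (P259.src m) (Disc.rmk (disc m) 0 y), t) =
            CylHom.φ g (Disc.rmap (P259.src m) (Disc.rmk (disc m) 0 y), t) :=
          congrArg (fun q : CylHom b a (disc m) S => q.φ (Disc.rmk (disc m) 0 y, t)) hpar.1
        rwa [Disc.rmap_src] at h'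
      · have h' : CylHom.φ f (Disc.rmap (P259.tgt m) (Disc.rmk (disc m) 0 y), t) =
            CylHom.φ g (Disc.rmap (P259.tgt m) (Disc.rmk (disc m) 0 y), t) :=
          congrArg (fun q : CylHom b a (disc m) S => q.φ (Disc.rmk (disc m) 0 y, t)) hpar.2
        rwa [Disc.rmap_tgt] at h'
  have hs : CylHom.h f = C.comp (C.ι (P259.src n)) h.1 := h.2.1.symm
  have ht : CylHom.h g = C.comp (C.ι (P259.tgt n)) h.1 := h.2.2.symm
  obtain ⟨W, W0, W1, Ws, Wt⟩ := Disc.exists_box f0 f1 ((CylHom.φ f).comp (r n))
    ((CylHom.φ g).comp (r n))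
    (fun y => ((CylHom.bottom f) (Disc.rmk (disc n) 0 y)).trans (by
      show base b S _ = base b S _
      rw [hs, tMap_comp, ← b.nat, Disc.rmap_src]))
    (fun y => ((CylHom.top f) (Disc.rmk (disc n) 0 y)).trans (by
      show side b S _ = side b S _
      rw [hs, a.map_comp, a.map_ι]
      exact congrArg (fun x => side b S (a.map h.1 x, 1)) (Disc.rmap_src y)))
    (fun y => ((CylHom.bottom g) (Disc.rmk (disc n) 0 y)).trans (by
      show base b S _ = base b S _
      rw [ht, tMap_comp, ← b.nat, Disc.rmap_tgt]))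
    (fun y => ((CylHom.top g) (Disc.rmk (disc n) 0 y)).trans (by
      show side b S _ = side b S _
      rw [ht, a.map_comp, a.map_ι]
      exact congrArg (fun x => side b S (a.map h.1 x, 1)) (Disc.rmap_tgt y)))
    hst
  let e : C(Disc.Real (disc (n + 1)), Disc.Dn (n + 1)) :=
    ⟨Disc.discHomeo (n + 1), (Disc.discHomeo (n + 1)).continuous⟩
  let k : CylHom b a (disc (n + 1)) S :=
    ⟨h.1, W.comp (e.prodMap (ContinuousMap.id I)), fun p => by
      obtain ⟨w, rfl⟩ := (Disc.discHomeo (n + 1)).symm.surjective p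
      exact W0 w, fun p => by
      obtain ⟨w, rfl⟩ := (Disc.discHomeo (n + 1)).symm.surjective p
      exact W1 w⟩
  refine ⟨⟨k, CylHom.ext h.2.1 ?_, CylHom.ext h.2.2 ?_⟩, rfl⟩
  · rintro ⟨p, t⟩
    obtain ⟨w, rfl⟩ := (Disc.discHomeo n).symm.surjective p
    show k.φ (Disc.rmap (P259.src n) (Disc.rmk (disc n) 0 w), t) = _
    rw [Disc.rmap_src]
    exact Ws w t
  · rintro ⟨p, t⟩
    obtain ⟨w, rfl⟩ := (Disc.discHomeo n).symm.surjective p
    show k.φ (Disc.rmap (P259.tgt n) (Disc.rmk (disc n) 0 w), t) = _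
    rw [Disc.rmap_tgt]
    exact Wt w t

/-- The cylinders as a functor on `C`. -/
structure CylAction where
  /-- The map of a map of `C`. -/
  map : ∀ {A B : GlobSum}, C.Hom A B → C(Cyl b A, Cyl b B)
  map_id : ∀ A, map (C.id A) = ContinuousMap.id _
  map_comp : ∀ {A B D : GlobSum} (f : C.Hom A B) (g : C.Hom B D),
    map (C.comp f g) = (map g).comp (map f)
  map_base : ∀ {A B : GlobSum} (f : C.Hom A B) (z : TS C A),
    map f (base b A z) = base b B (tMap f z)
  map_top : ∀ {A B : GlobSum} (f : C.Hom A B) (p : Disc.Real A),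
    map f (side b A (p, 1)) = side b B (a.map f p, 1)
  map_side : ∀ {A B : GlobSum} (f : A ⟶ B) (p : Disc.Real A) (t : I),
    map (C.ι f) (side b A (p, t)) = side b B (Disc.rmap f p, t)

theorem exists_cylAction (hC : IsCoherator C) : Nonempty (CylAction b a) := by
  obtain ⟨s, hs⟩ := hC.exists_section (cylFst b a) (liftsOver_cylFst b a)
  refine ⟨{ map := fun f => CylHom.toMap (s.map f), map_id := ?_, map_comp := ?_, map_base := ?_,
            map_top := ?_, map_side := ?_ }⟩
  · intro A
    rw [s.map_id]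
    exact ContinuousMap.ext fun w => CylHom.toMap_id w
  · intro A B D f g
    rw [s.map_comp]
    exact ContinuousMap.ext fun w => CylHom.toMap_comp _ _ w
  · intro A B f z
    exact congrArg (fun k => base b B (tMap k z)) (hs A B f)
  · intro A B f p
    exact ((s.map f).top p).trans (congrArg (fun k => side b B (a.map k p, 1)) (hs A B f))
  · intro A B f p t
    exact congrArg (fun q : CylHom b a A B => q.φ (p, t)) (s.map_ι f)

end Vale.Agent.P259.Ext
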