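import Vale.Agent.P259.Ext.GX
import Vale.Agent.P259.Ext.Chains
import Vale.Agent.P259.Final.CGFat

/-!
P259: the functor `G`, evaluation `r : G Π Y → Y`, and the retraction `rho : T S → D S`.
-/

open CategoryTheory Opposite Vale.Agent.P259.Real

noncomputable section

namespace Vale.Agent.P259.Ext

open Vale.Agent.P259.Disc (Action)

variable {C : GlobExt}

/-- The underlying globular sums of elements. -/
def forget (X : Gpd C) : El X ⥤ C.Obj where
  obj a := C.ob a.S
  map f := f.h
  map_id _ := rfl
  map_comp _ _ := rfl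

/-- A natural family of maps from the discs of elements to a space. -/
structure Evaluation (a : Action C) (X : Gpd C) (Y : Type) [TopologicalSpace Y] where
  /-- The map of an element. -/
  ev : ∀ A, X.val A → C(Disc.Real A, Y)
  ev_act : ∀ {A B : GlobSum} (h : C.Hom A B) (u : X.val B) (p : Disc.Real A),
    ev A (X.act h u) p = ev B u (a.map h p)

variable {a : Action C} (K : Contr C)

namespace Evaluation

variable {X : Gpd C} {Y : Type} [TopologicalSpace Y] (E : Evaluation a X Y)

/-- The value of an evaluation on a chain. -/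
def chain {p : ℕ} (c : ComposableArrows (El X) p) : C(Simp p, Y) :=
  (E.ev _ (c.obj (Fin.last p)).u).comp (proto a K (c ⋙ forget X) p OrderHom.id)

theorem chain_face {q r : ℕ} (δ : Face r q) (c : ComposableArrows (El X) q) (t : Simp r) :
    E.chain K (δ.monotone.functor ⋙ c : ComposableArrows (El X) r) t =
      E.chain K c (push δ t) := by
  have h1 : proto a K ((δ.monotone.functor ⋙ c) ⋙ forget X) r OrderHom.id =
      proto a K (c ⋙ forget X) r (δ.toOrderHom.comp OrderHom.id) :=
    proto_comp a K (c ⋙ forget X) δ.toOrderHom r OrderHom.id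
  refine Eq.trans ?_ (congrArg (fun x => E.ev (c.obj (Fin.last q)).S (c.obj (Fin.last q)).u x)
    (proto_push a K (c ⋙ forget X) OrderHom.id δ t)).symm
  refine Eq.trans (congrArg (fun v => E.ev (c.obj (δ (Fin.last r))).S v
    (proto a K ((δ.monotone.functor ⋙ c) ⋙ forget X) r OrderHom.id t))
    (c.map (homOfLE (Fin.le_last (δ (Fin.last r))))).compat.symm) ?_
  refine (E.ev_act _ _ _).trans ?_
  exact congrArg (fun g : C(Simp r, Disc.Real (c.obj (δ (Fin.last r))).S) =>
    E.ev _ (c.obj (Fin.last q)).u
      (a.map (c.map (homOfLE (Fin.le_last (δ (Fin.last r))))).h (g t))) h1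

/-- Evaluation on the space of a groupoid. -/
def desc : C(GX X, Y) where
  toFun := Quot.lift (fun z : Pre (nerve (El X)) => E.chain K z.2.1 z.2.2) (by
    rintro _ _ ⟨δ, c, t⟩
    exact E.chain_face K δ c t)
  continuous_toFun := Vale.Agent.P259.Real.continuous_iff.2 fun p =>
    continuous_prod_of_discrete_left.2 fun c => (E.chain K c).continuous

theorem desc_mk {p : ℕ} (c : ComposableArrows (El X) p) (t : Simp p) :
    E.desc K (Vale.Agent.P259.Real.mk (X := Vale.Agent.P259.Real.nerve (El X)) c t) = E.chain K c t := rfl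

theorem desc_vertex (b : El X) :
    E.desc K (vertex b) = E.ev b.S b.u (show Disc.Real b.S from K.pt (C.ob b.S)) := rfl

/-- Evaluation after Yoneda. -/
theorem desc_gMap {S : GlobSum} (u : X.val S) (E' : Evaluation a (repGpd C S) (Disc.Real S))
    (h : ∀ (A : GlobSum) (v : C.Hom A S) (p : Disc.Real A), E'.ev A v p = a.map v p) (z : TS C S) :
    E.desc K (gMap X u z) = E.ev S u (E'.desc K z) := by
  obtain ⟨p, c, t, rfl⟩ := exists_mk z
  refine (E.ev_act (show C.Hom (c.obj (Fin.last p)).S S from (c.obj (Fin.last p)).u) u _).trans ?_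
  exact congrArg (E.ev S u) (h _ _ _).symm

/-- Evaluation is natural. -/
theorem desc_map {X' : Gpd C} {Y' : Type} [TopologicalSpace Y'] (E' : Evaluation a X' Y')
    (f : X ⟶ X') (g : C(Y, Y'))
    (h : ∀ (A : GlobSum) (u : X.val A) (p : Disc.Real A),
      E'.ev A (f.hom.app (op (C.ob A)) u) p = g (E.ev A u p)) (z : GX X) :
    E'.desc K (gxMap f z) = g (E.desc K z) := by
  obtain ⟨p, c, t, rfl⟩ := exists_mk z
  exact h _ _ _

end Evaluation

variable (a)

/-- The evaluation of a representable. -/
def repEval (S : GlobSum) : Evaluation a (repGpd C S) (Disc.Real S) where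
  ev _ v := a.map (B := S) v
  ev_act h u p := congrArg (fun F : C(_, _) => F p) (a.map_comp (D := S) h u)

/-- The retraction of `T S` on the disc space. -/
def rho (S : GlobSum) : C(TS C S, Disc.Real S) := (repEval a S).desc K

theorem rho_tMap {A B : GlobSum} (h : C.Hom A B) (z : TS C A) :
    rho a K B (tMap h z) = a.map h (rho a K A z) :=
  (repEval a B).desc_gMap K (S := A) h (repEval a A) (fun _ _ _ => rfl) z

/-- The functor `G`. -/
def gFunctor (C : GlobExt) : Gpd C ⥤ Space where
  obj X := CompactlyGenerated.of.{0, 0} (GX X)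
  map f := ConcreteCategory.ofHom (gxMap f)
  map_id X := by
    ext z
    obtain ⟨p, c, t, rfl⟩ := exists_mk (X := nerve (El X)) z
    rfl
  map_comp f g := by
    ext z
    obtain ⟨p, c, t, rfl⟩ := exists_mk (X := nerve (El _)) z
    rfl

/-- The evaluation of the fundamental groupoid. -/
def piEval (Y : Space) : Evaluation a ((fundGpd a.discFunctor).obj Y) Y where
  ev A u := (show Disc.realSpace A ⟶ Y from u).hom.hom
  ev_act _ _ _ := rfl

/-- The evaluation `r`. -/
def evalNat : fundGpd a.discFunctor ⋙ gFunctor C ⟶ 𝟭 Space where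
  app Y := ConcreteCategory.ofHom ((piEval a Y).desc K)
  naturality Y Y' f := by
    ext z
    exact (piEval a Y).desc_map K (piEval a Y') ((fundGpd a.discFunctor).map f) f.hom.hom
      (fun _ _ _ => rfl) z

/-- Evaluation of a cell after Yoneda. -/
theorem eval_gMap {Y : Space} {S : GlobSum} (u : ((fundGpd a.discFunctor).obj Y).val S)
    (z : TS C S) : (piEval a Y).desc K (gMap _ u z) =
      (show Disc.realSpace S ⟶ Y from u).hom.hom (rho a K S z) :=
  (piEval a Y).desc_gMap K u (repEval a S) (fun _ _ _ => rfl) z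

end Vale.Agent.P259.Ext
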