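import Vale.Agent.P259.Ext.Cyl
import Vale.Agent.P259.Ext.Eval
import Vale.Agent.P259.Cat.TrivFib

/-!
P259: the groupoid `Z X` of cells of `X` with a compatible map of their cylinders into `G X`,
and its two projections.
-/

open Set CategoryTheory Opposite
open scoped unitInterval

noncomputable section

namespace Vale.Agent.P259.Ext

open Vale.Agent.P259.Disc (Action)

variable {C : GlobExt} {b : Beta C} {a : Action C} (c : CylAction b a)

/-- A cell of `X` with a map of its cylinder. -/
def ZVal (b : Beta C) (X : Gpd C) (S : GlobSum) : Type :=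
  {w : X.val S × C(Cyl b S, GX X) // ∀ z, w.2 (base b S z) = gMap X w.1 z}

theorem ZVal.ext {X : Gpd C} {S : GlobSum} {v w : ZVal b X S} (h : v.1.1 = w.1.1)
    (h' : ∀ z, v.1.2 z = w.1.2 z) : v = w :=
  Subtype.ext (Prod.ext h (ContinuousMap.ext h'))

/-- The action of `C` on them. -/
def zact (X : Gpd C) {A B : GlobSum} (h : C.Hom A B) (w : ZVal b X B) : ZVal b X A :=
  ⟨(X.act h w.1.1, w.1.2.comp (c.map h)), fun z => by
    show w.1.2 (c.map h (base b A z)) = _
    rw [c.map_base, w.2, gMap_tMap]⟩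

/-- The presheaf `Z X`. -/
def zPre (X : Gpd C) : C.Objᵒᵖ ⥤ Type where
  obj A := ZVal b X (toSum A.unop)
  map f := TypeCat.ofHom (zact c X f.unop)
  map_id A := by
    ext w
    refine ZVal.ext (X.act_id _) fun z => ?_
    show w.1.2 (c.map (C.id _) z) = _
    rw [c.map_id]
    rfl
  map_comp f g := by
    ext w
    refine ZVal.ext (X.act_comp _ _ _) fun z => ?_
    exact congrArg (fun F : C(_, _) => (show ZVal b X _ from w).1.2 (F z))
      (c.map_comp g.unop f.unop)

theorem zPre_isGroupoid (X : Gpd C) : IsGroupoid (zPre c X) := by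
  intro A x hx
  let x' : ∀ l, ZVal b X (disc (A.i l)) := x
  have h1 : Matching (fun S => X.val S) (fun f => X.act (C.ι f)) A (fun l => (x' l).1.1) :=
    fun l => congrArg (fun w : ZVal b X (disc (A.j l)) => w.1.1) (hx l)
  obtain ⟨u, hu, huu⟩ := X.property A _ h1
  let G : C(Disc.Real A, C(I, GX X)) := Disc.rdesc
    (fun l => ContinuousMap.curry ⟨fun q : Disc.Dn (A.i l) × I =>
      (x' l).1.2 (side b _ (Disc.rmk (disc (A.i l)) 0 q.1, q.2)), by fun_prop⟩) fun l z => by
    ext t
    have h2 : (x' l.castSucc).1.2 (c.map (C.ι (glueTgt A l))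
          (side b _ (Disc.rmk (disc (A.j l)) 0 z, t))) =
        (x' l.succ).1.2 (c.map (C.ι (glueSrc A l))
          (side b _ (Disc.rmk (disc (A.j l)) 0 z, t))) :=
      congrArg (fun w : ZVal b X (disc (A.j l)) =>
        w.1.2 (side b _ (Disc.rmk (disc (A.j l)) 0 z, t))) (hx l)
    rw [c.map_side, c.map_side, glueTgt, glueSrc, Disc.rmap_discMap, Disc.rmap_discMap] at h2
    exact h2
  have hG : ∀ p, G p 0 = gMap X u (b.map A p) := by
    refine congrFun (Disc.real_ext fun l w => ?_)
    show (x' l).1.2 (side b _ (Disc.rmk (disc (A.i l)) 0 w, 0)) = _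
    have hu' : X.act (C.ι (P259.incl A l)) u = (x' l).1.1 := hu l
    rw [side_zero, (x' l).2, ← hu', ← gMap_tMap, ← b.nat]
    rfl
  let m : C(Cyl b A, GX X) := cdesc (gMap X u) (ContinuousMap.uncurry G) hG
  refine ⟨(⟨(u, m), fun _ => rfl⟩ : ZVal b X A), fun l => ?_, fun y hy => ?_⟩
  · show zact c X (C.ι (P259.incl A l)) ⟨(u, m), fun _ => rfl⟩ = x' l
    refine ZVal.ext (hu l) (congrFun (cyl_ext (fun z => ?_) ?_))
    · show m (c.map (C.ι (P259.incl A l)) (base b _ z)) = (x' l).1.2 (base b _ z)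
      have hu' : X.act (C.ι (P259.incl A l)) u = (x' l).1.1 := hu l
      rw [c.map_base, (x' l).2, ← hu', ← gMap_tMap]
      rfl
    · rintro ⟨p, t⟩
      show m (c.map (C.ι (P259.incl A l)) (side b _ (p, t))) = (x' l).1.2 (side b _ (p, t))
      rw [c.map_side]
      obtain ⟨w, rfl⟩ := (Disc.discHomeo (A.i l)).symm.surjective p
      rfl
  · let y' : ZVal b X A := y
    have hy0 : y'.1.1 = u := huu _ fun l => congrArg (fun w : ZVal b X _ => w.1.1) (hy l)
    show y' = ⟨(u, m), fun _ => rfl⟩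
    refine ZVal.ext hy0 (congrFun (cyl_ext (fun z => ?_) ?_))
    · rw [y'.2, hy0]
      rfl
    · rintro ⟨p, t⟩
      revert p
      refine congrFun (Disc.real_ext (G := fun p => G p t) fun l w => ?_)
      have h3 : y'.1.2 (c.map (C.ι (P259.incl A l))
            (side b _ (Disc.rmk (disc (A.i l)) 0 w, t))) =
          (x' l).1.2 (side b _ (Disc.rmk (disc (A.i l)) 0 w, t)) :=
        congrArg (fun v : ZVal b X (disc (A.i l)) =>
          v.1.2 (side b _ (Disc.rmk (disc (A.i l)) 0 w, t))) (hy l)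
      rw [c.map_side] at h3
      exact h3

/-- The map of `Z` of a morphism. -/
def zmap {X Y : Gpd C} (f : X ⟶ Y) (S : GlobSum) (w : ZVal b X S) : ZVal b Y S :=
  ⟨(f.hom.app (op (C.ob S)) w.1.1, (gxMap f).comp w.1.2), fun z => by
    show gxMap f (w.1.2 (base b S z)) = _
    rw [w.2, gxMap_gMap]⟩

/-- The functor `Z`. -/
def zFunctor : Gpd C ⥤ Gpd C where
  obj X := ⟨zPre c X, zPre_isGroupoid c X⟩
  map {X Y} f := ObjectProperty.homMk
    { app := fun A => TypeCat.ofHom (zmap f (toSum A.unop))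
      naturality := fun A B h => by
        ext w
        refine ZVal.ext ?_ fun z => rfl
        exact ConcreteCategory.congr_hom (f.hom.naturality h) w.1.1 }
  map_id X := by
    ext A w
    refine ZVal.ext rfl fun z => ?_
    exact ConcreteCategory.congr_hom ((gFunctor C).map_id X) _
  map_comp f g := by
    ext A w
    refine ZVal.ext rfl fun z => ?_
    exact ConcreteCategory.congr_hom ((gFunctor C).map_comp f g) _

/-- The left leg. -/
def pNat : zFunctor c ⟶ 𝟭 (Gpd C) where
  app X := ObjectProperty.homMk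
    { app := fun A => TypeCat.ofHom fun w : ZVal b X (toSum A.unop) => w.1.1
      naturality := fun A B h => rfl }
  naturality X Y f := rfl

/-- The cell of `Π (G X)` of a cell of `Z X`. -/
def zTop (X : Gpd C) (S : GlobSum) (w : ZVal b X S) : C(Disc.Real S, GX X) :=
  w.1.2.comp ((side b S).comp ((ContinuousMap.id _).prodMk (ContinuousMap.const _ 1)))

/-- The right leg. -/
def qNat : zFunctor c ⟶ gFunctor C ⋙ fundGpd a.discFunctor where
  app X := ObjectProperty.homMk
    { app := fun A => TypeCat.ofHom fun w : ZVal b X (toSum A.unop) =>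
        (ConcreteCategory.ofHom (zTop X _ w) : Disc.realSpace (toSum A.unop) ⟶ (gFunctor C).obj X)
      naturality := fun A B h => by
        ext w
        show (ConcreteCategory.ofHom (zTop X _ (zact c X h.unop w)) :
            Disc.realSpace (toSum B.unop) ⟶ (gFunctor C).obj X) =
          a.functor.map h.unop ≫ ConcreteCategory.ofHom (zTop X _ w)
        ext p
        exact congrArg (show ZVal b X (toSum A.unop) from w).1.2 (c.map_top h.unop p) }
  naturality X Y f := rfl

/-- The homotopy of a cell of `Z X`. -/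
def zHom (X : Gpd C) {n : ℕ} (z : ((zFunctor c).obj X).cells n) : C(Disc.Dn n × I, GX X) :=
  ⟨fun q => (show ZVal b X (disc n) from z).1.2
    (side b (disc n) (Disc.rmk (disc n) 0 q.1, q.2)), by fun_prop⟩

/-- The disc of a cell of `X`. -/
def cellDisc (b : Beta C) (X : Gpd C) {n : ℕ} (u : X.cells n) : C(Disc.Dn n, GX X) :=
  ⟨fun x => gMap X (S := disc n) u (b.map (disc n) (Disc.rmk (disc n) 0 x)), by fun_prop⟩

theorem cellDisc_src {X : Gpd C} {n : ℕ} (u : X.cells (n + 1)) (x : Disc.Dn n) :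
    cellDisc b X u (Disc.source x) = cellDisc b X (X.s u) x := by
  show gMap X u (b.map _ _) = gMap X (X.act (C.ι (src n)) u) (b.map _ _)
  refine (congrArg (gMap X (S := disc (n + 1)) u) ((congrArg (b.map _)
    (Disc.rmap_src x).symm).trans (b.nat _ _))).trans ?_
  exact gMap_tMap X (C.ι (src n)) (show X.val (disc (n + 1)) from u) _

theorem cellDisc_tgt {X : Gpd C} {n : ℕ} (u : X.cells (n + 1)) (x : Disc.Dn n) :
    cellDisc b X u (Disc.target x) = cellDisc b X (X.t u) x := by
  show gMap X u (b.map _ _) = gMap X (X.act (C.ι (tgt n)) u) (b.map _ _)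
  refine (congrArg (gMap X (S := disc (n + 1)) u) ((congrArg (b.map _)
    (Disc.rmap_tgt x).symm).trans (b.nat _ _))).trans ?_
  exact gMap_tMap X (C.ι (tgt n)) (show X.val (disc (n + 1)) from u) _

theorem zHom_zero {X : Gpd C} {n : ℕ} (z : ((zFunctor c).obj X).cells n) (x : Disc.Dn n) :
    zHom c X z (x, 0) = cellDisc b X (Gpd.app ((pNat c).app X) z) x := by
  show (show ZVal b X (disc n) from z).1.2 (side b (disc n) (_, 0)) = _
  rw [side_zero, (show ZVal b X (disc n) from z).2]
  rfl

theorem zHom_src {X : Gpd C} {n : ℕ} (z : ((zFunctor c).obj X).cells (n + 1)) (x : Disc.Dn n)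
    (t : I) : zHom c X z (Disc.source x, t) = zHom c X (((zFunctor c).obj X).s z) (x, t) := by
  show _ = (show ZVal b X (disc (n + 1)) from z).1.2
    (c.map (C.ι (src n)) (side b (disc n) (Disc.rmk (disc n) 0 x, t)))
  rw [c.map_side, Disc.rmap_src]
  rfl

theorem zHom_tgt {X : Gpd C} {n : ℕ} (z : ((zFunctor c).obj X).cells (n + 1)) (x : Disc.Dn n)
    (t : I) : zHom c X z (Disc.target x, t) = zHom c X (((zFunctor c).obj X).t z) (x, t) := by
  show _ = (show ZVal b X (disc (n + 1)) from z).1.2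
    (c.map (C.ι (tgt n)) (side b (disc n) (Disc.rmk (disc n) 0 x, t)))
  rw [c.map_side, Disc.rmap_tgt]
  rfl

/-- A homotopy out of the disc of a cell is the homotopy of a cell of `Z`. -/
theorem exists_zCell {X : Gpd C} {n : ℕ} (u : X.cells n) (φ : C(Disc.Dn n × I, GX X))
    (h : ∀ x, φ (x, 0) = cellDisc b X u x) :
    ∃ z : ((zFunctor c).obj X).cells n, Gpd.app ((pNat c).app X) z = u ∧
      ∀ q, zHom c X z q = φ q := by
  let e : C(Disc.Real (disc n) × I, Disc.Dn n × I) :=
    (⟨Disc.discHomeo n, (Disc.discHomeo n).continuous⟩ :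
      C(Disc.Real (disc n), Disc.Dn n)).prodMap (ContinuousMap.id I)
  let m : C(Cyl b (disc n), GX X) := cdesc (gMap X (S := disc n) u) (φ.comp e) fun p => by
    obtain ⟨w, rfl⟩ := (Disc.discHomeo n).symm.surjective p
    exact h w
  exact ⟨(⟨(u, m), fun _ => rfl⟩ : ZVal b X (disc n)), rfl, fun q => rfl⟩

theorem zCell_ext {X : Gpd C} {n : ℕ} {z z' : ((zFunctor c).obj X).cells n}
    (h : Gpd.app ((pNat c).app X) z = Gpd.app ((pNat c).app X) z')
    (h' : ∀ q, zHom c X z q = zHom c X z' q) : z = z' := by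
  let v : ZVal b X (disc n) := z
  let v' : ZVal b X (disc n) := z'
  show v = v'
  refine ZVal.ext h (congrFun (cyl_ext (fun w => ?_) ?_))
  · rw [v.2, v'.2, show v.1.1 = v'.1.1 from h]
  · rintro ⟨p, t⟩
    obtain ⟨w, rfl⟩ := (Disc.discHomeo n).symm.surjective p
    exact h' (w, t)

theorem zHom_incl {X : Gpd C} : ∀ {n : ℕ} {z z' : ((zFunctor c).obj X).cells n},
    Gpd.Par _ z z' → ∀ (s : Disc.Sn n) (t : I),
      zHom c X z (Disc.incl s, t) = zHom c X z' (Disc.incl s, t)
  | 0, _, _, _, s, _ => isEmptyElim s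
  | m + 1, z, z', h, s, t => by
    rcases Disc.mem_hemisphere s with ⟨y, rfl⟩ | ⟨y, rfl⟩
    · show zHom c X z (Disc.source y, t) = zHom c X z' (Disc.source y, t)
      rw [zHom_src, zHom_src, h.1]
    · show zHom c X z (Disc.target y, t) = zHom c X z' (Disc.target y, t)
      rw [zHom_tgt, zHom_tgt, h.2]

/-- The left leg is a weak equivalence. -/
theorem p_weq (κ : IdLift C) (X : Gpd C) : weqGpd κ ((pNat c).app X) := by
  refine weqGpd_of_trivFib _ κ (fun u => ?_) fun n x y hxy u hs ht => ?_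
  · obtain ⟨z, hz, -⟩ := exists_zCell c u ((cellDisc b X u).comp ContinuousMap.fst) fun _ => rfl
    exact ⟨z, hz⟩
  obtain ⟨σ', hσs, hσt⟩ := Disc.exists_glue (ContinuousMap.curry (zHom c X x))
    (ContinuousMap.curry (zHom c X y)) fun s => ContinuousMap.ext fun t => zHom_incl c hxy s t
  have hσ : ∀ s, ContinuousMap.uncurry σ' (s, 0) = cellDisc b X u (Disc.incl s) := by
    intro s
    rcases Disc.mem_hemisphere s with ⟨w, rfl⟩ | ⟨w, rfl⟩
    · show σ' (Disc.sourceS w) 0 = _
      rw [hσs]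
      refine (zHom_zero c x w).trans ?_
      rw [← hs]
      exact (cellDisc_src u w).symm
    · show σ' (Disc.targetS w) 0 = _
      rw [hσt]
      refine (zHom_zero c y w).trans ?_
      rw [← ht]
      exact (cellDisc_tgt u w).symm
  obtain ⟨H, H0, H1⟩ := Disc.exists_extension (cellDisc b X u) (ContinuousMap.uncurry σ') hσ
  obtain ⟨z, hz, hzH⟩ := exists_zCell c u H H0
  refine ⟨z, zCell_ext c ?_ ?_, zCell_ext c ?_ ?_, hz⟩
  · rw [← hs, ← hz]
    exact Gpd.app_pull ((pNat c).app X) _ z
  · rintro ⟨w, t⟩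
    refine (zHom_src c z w t).symm.trans ((hzH _).trans ?_)
    exact (H1 (Disc.sourceS w) t).trans (congrArg (fun F : C(I, GX X) => F t) (hσs w))
  · rw [← ht, ← hz]
    exact Gpd.app_pull ((pNat c).app X) _ z
  · rintro ⟨w, t⟩
    refine (zHom_tgt c z w t).symm.trans ((hzH _).trans ?_)
    exact (H1 (Disc.targetS w) t).trans (congrArg (fun F : C(I, GX X) => F t) (hσt w))

end Vale.Agent.P259.Ext
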